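import Vale.Agent.P246.Dis.H87.Pres
import Vale.Agent.P246.Dis.H140.Cover
import Vale.Agent.P246.Dis.H821.Euler
import Vale.Agent.P246.Dis.H285.PiOne

/-! # P246, disproof, assembly of block C: a finite two-dimensional model of `X` gives a
presentation of the fundamental group with `gens - rels = 1 - χ(X)` -/

open Set Topology unitInterval

namespace Vale.Agent.P246.Dis.H87

open Vale.Agent.P246.T

theorem pathConnectedSpace_of_homotopyEquiv {X Y : Type} [TopologicalSpace X]
    [TopologicalSpace Y] [PathConnectedSpace X] (h : ContinuousMap.HomotopyEquiv X Y) :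
    PathConnectedSpace Y := by
  obtain ⟨x₀⟩ : Nonempty X := inferInstance
  have hj : ∀ y : Y, Joined (h.toFun (h.invFun y)) y := by
    intro y
    obtain ⟨H⟩ := h.right_inv
    refine ⟨⟨⟨fun t => H (t, y), H.continuous.comp (by fun_prop)⟩, ?_, ?_⟩⟩
    · change H (0, y) = _
      rw [H.apply_zero]
      rfl
    · change H (1, y) = _
      rw [H.apply_one]
      rfl
  refine ⟨⟨h.toFun x₀⟩, fun y y' => ?_⟩
  refine (hj y).symm.trans (Joined.trans ?_ (hj y'))
  obtain ⟨γ⟩ := PathConnectedSpace.joined (h.invFun y) (h.invFun y')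
  exact ⟨γ.map h.toFun.continuous⟩

/-- **Block C**, for a space `X` with a simply connected quotient covering. -/
theorem exists_pres_of_model {G X E : Type} [Group G] [TopologicalSpace X] [T2Space X]
    [CWComplex (univ : Set X)] [CWComplex.Finite (univ : Set X)]
    [TopologicalSpace E] [MulAction G E] [ContinuousConstSMul G E] [SimplyConnectedSpace E]
    (p : C(E, X)) (hp : IsQuotientCoveringMap p G) (h : HasFiniteTwoModel X) :
    ∃ P : FinPresentation G, (P.gens : ℤ) - P.rels = 1 - H821.chi X := by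
  obtain ⟨Y, tY, t2Y, cwY, hfin, hdim, ⟨e⟩⟩ := h
  have hpX : PathConnectedSpace X := by
    have := hp.surjective.pathConnectedSpace p.continuous
    exact this
  have hpY : PathConnectedSpace Y := pathConnectedSpace_of_homotopyEquiv e
  obtain ⟨F, tF, aF, cF, q, r, hF, hq, -, -⟩ := H140.exists_cover_of_htpyEquiv p hp e.symm
  obtain ⟨y⟩ : Nonempty Y := inferInstance
  obtain ⟨φ⟩ := H285.pi1_equiv hq y
  obtain ⟨P, h1, h2⟩ := exists_pres_of_cw hdim hq.isCoveringMap y φ
  refine ⟨P, ?_⟩
  have h3 := H821.euler_eq X Y ⟨e⟩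
  have h4 := H821.chi_dim_two Y hdim
  have h5 : (P.rels : ℤ) + 1 = Nat.card (RelCWComplex.cell (univ : Set Y) 2) +
      Nat.card (RelCWComplex.cell (univ : Set Y) 0) := by exact_mod_cast h2
  rw [h3, h4, h1]
  linarith

/-- **Block C**, for a space `X` with the `D(2)` condition. -/
theorem exists_pres_of_model' {G X : Type} [Group G] [TopologicalSpace X] [T2Space X]
    [CWComplex (univ : Set X)] [CWComplex.Finite (univ : Set X)] [ConnectedSpace X] (x : X)
    (e : FundamentalGroup X x ≃* G) (hD : D2Condition X) (h : HasFiniteTwoModel X) :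
    ∃ P : FinPresentation G, (P.gens : ℤ) - P.rels = 1 - H821.chi X := by
  obtain ⟨-, -, hlpc⟩ := T.CWB.main X
  have hpcX : PathConnectedSpace X := PathConnectedSpace.of_locallyPathConnectedSpace
  obtain ⟨E, tE, A, hC, p, hE, hq, -, -⟩ := T.AC.main G X x ⟨e⟩ hD
  exact exists_pres_of_model p hq h

/-- The Euler characteristic of a finite CW complex with one vertex, `a` edges, `b` faces and one
three-cell. -/
theorem chi_of_card {X : Type} [TopologicalSpace X] [CWComplex (univ : Set X)] {v a b c : ℕ}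
    (h0 : Nonempty (RelCWComplex.cell (univ : Set X) 0 ≃ Fin v))
    (h1 : Nonempty (RelCWComplex.cell (univ : Set X) 1 ≃ Fin a))
    (h2 : Nonempty (RelCWComplex.cell (univ : Set X) 2 ≃ Fin b))
    (h3 : Nonempty (RelCWComplex.cell (univ : Set X) 3 ≃ Fin c))
    (h4 : ∀ m > 3, IsEmpty (RelCWComplex.cell (univ : Set X) m)) :
    H821.chi X = (v : ℤ) - a + b - c := by
  rw [H821.chi_eq_sum X (N := 4) (fun n hn => by
    have := h4 n (by omega)
    exact Nat.card_of_isEmpty)]
  obtain ⟨e0⟩ := h0
  obtain ⟨e1⟩ := h1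
  obtain ⟨e2⟩ := h2
  obtain ⟨e3⟩ := h3
  rw [Finset.sum_range_succ, Finset.sum_range_succ, Finset.sum_range_succ, Finset.sum_range_succ,
    Finset.sum_range_zero, Nat.card_congr e0, Nat.card_congr e1, Nat.card_congr e2,
    Nat.card_congr e3, Nat.card_fin, Nat.card_fin, Nat.card_fin, Nat.card_fin]
  ring

/-- **Block C**, final form (matching the output D2 of helper316): `X` has one vertex, `n` edges,
`n` faces and one three-cell. -/
theorem exists_pres_of_cells {G X E : Type} [Group G] [TopologicalSpace X] [T2Space X]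
    [CWComplex (univ : Set X)] [CWComplex.Finite (univ : Set X)]
    [TopologicalSpace E] [MulAction G E] [ContinuousConstSMul G E] [SimplyConnectedSpace E]
    (p : C(E, X)) (hp : IsQuotientCoveringMap p G) {n : ℕ}
    (h0 : Nonempty (RelCWComplex.cell (univ : Set X) 0 ≃ Fin 1))
    (h1 : Nonempty (RelCWComplex.cell (univ : Set X) 1 ≃ Fin n))
    (h2 : Nonempty (RelCWComplex.cell (univ : Set X) 2 ≃ Fin n))
    (h3 : Nonempty (RelCWComplex.cell (univ : Set X) 3 ≃ Fin 1))
    (h4 : ∀ m > 3, IsEmpty (RelCWComplex.cell (univ : Set X) m))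
    (h : HasFiniteTwoModel X) :
    ∃ P : FinPresentation G, P.gens = P.rels + 1 := by
  obtain ⟨P, hP⟩ := exists_pres_of_model p hp h
  rw [chi_of_card h0 h1 h2 h3 h4] at hP
  refine ⟨P, ?_⟩
  push_cast at hP
  omega

/-- **Block C**, final form for a space with the `D(2)` condition. -/
theorem exists_pres_of_cells' {G X : Type} [Group G] [TopologicalSpace X] [T2Space X]
    [CWComplex (univ : Set X)] [CWComplex.Finite (univ : Set X)] [ConnectedSpace X] (x : X)
    (e : FundamentalGroup X x ≃* G) (hD : D2Condition X) {n : ℕ}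
    (h0 : Nonempty (RelCWComplex.cell (univ : Set X) 0 ≃ Fin 1))
    (h1 : Nonempty (RelCWComplex.cell (univ : Set X) 1 ≃ Fin n))
    (h2 : Nonempty (RelCWComplex.cell (univ : Set X) 2 ≃ Fin n))
    (h3 : Nonempty (RelCWComplex.cell (univ : Set X) 3 ≃ Fin 1))
    (h4 : ∀ m > 3, IsEmpty (RelCWComplex.cell (univ : Set X) m))
    (h : HasFiniteTwoModel X) :
    ∃ P : FinPresentation G, P.gens = P.rels + 1 := by
  obtain ⟨P, hP⟩ := exists_pres_of_model' x e hD h
  rw [chi_of_card h0 h1 h2 h3 h4] at hP
  refine ⟨P, ?_⟩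
  push_cast at hP
  omega

end Vale.Agent.P246.Dis.H87
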