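import Vale.Agent.P246.Dis.H87.Lifts

/-! # P246, disproof, block C1: two-dimensional CW complexes in the form `Cx`, with the sets of
cells -/

open Set Topology unitInterval

namespace Vale.Agent.P246.Dis.H87

open Vale.Agent.P173.Topo

theorem exists_Cx' {Z : Type} [TopologicalSpace Z] [T2Space Z] [CWComplex (univ : Set Z)]
    (hdim : ∀ n > 2, IsEmpty (RelCWComplex.cell (univ : Set Z) n)) :
    ∃ c : Vale.Agent.P173.Topo.Cx Z, c.V = RelCWComplex.cell (univ : Set Z) 0 ∧
      c.Ed = RelCWComplex.cell (univ : Set Z) 1 ∧ c.Fa = RelCWComplex.cell (univ : Set Z) 2 := by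
  choose src hsrc using fun e : RelCWComplex.cell (univ : Set Z) 1 =>
    edge_end (e := e) (s := 0) (Or.inl rfl)
  choose tgt htgt using fun e : RelCWComplex.cell (univ : Set Z) 1 =>
    edge_end (e := e) (s := 1) (Or.inr rfl)
  refine ⟨{
    V := RelCWComplex.cell (univ : Set Z) 0
    Ed := RelCWComplex.cell (univ : Set Z) 1
    Fa := RelCWComplex.cell (univ : Set Z) 2
    vert := cwVert
    edge := cwEdge
    face := cwFace
    src := src
    tgt := tgt
    edge_cont := continuous_cwEdge
    face_cont := continuous_cwFace
    edge_zero := hsrc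
    edge_one := htgt
    face_zero := ?_
    face_wrap := ?_
    vert_inj := CWComplex.injective_map_zero (univ : Set Z)
    edge_vert := fun e s v h => edge_ne_vert h
    edge_inj := ?_
    face_vert := ?_
    face_edge := ?_
    face_inj := ?_
    face_bdry := ?_
    cover := ?_
    closed1 := ?_
    closed2 := ?_ }, rfl, rfl, rfl⟩
  · intro f t t'
    simp only [cwFace, Icc.coe_zero, zero_smul]
  · intro f r
    simp only [cwFace, theta_zero_one]
  · intro e s e' s' h h0 h1
    have hm := edge_mem (e := e) h0 h1
    rcases edge_cases e' s' with ⟨v, hv⟩ | ⟨h0', h1', hm'⟩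
    · rw [h, hv] at hm
      have := open_ne hm (vert_mem v)
      simp at this
    · rw [← h] at hm'
      have := open_ne hm hm'
      simp only [Sigma.mk.injEq, heq_eq_eq, true_and] at this
      subst this
      refine ⟨rfl, ?_⟩
      have h2 : 2 * (s : ℝ) - 1 = 2 * (s' : ℝ) - 1 :=
        congrFun (map_inj e (norm_seg_lt h0 h1) (norm_seg_lt h0' h1') h) 0
      exact Subtype.ext (by linarith only [h2])
  · intro f r t v h
    by_contra hr
    refine face_not_mem (f := f) (q := (r, t)) hr (m := 0) (by norm_num) (j := v) ?_
    rw [h]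
    exact vert_mem v
  · intro f r t e s h
    by_contra hr
    rcases edge_cases e s with ⟨v, hv⟩ | ⟨-, -, hm⟩
    · refine face_not_mem (f := f) (q := (r, t)) hr (m := 0) (by norm_num) (j := v) ?_
      rw [h, hv]
      exact vert_mem v
    · refine face_not_mem (f := f) (q := (r, t)) hr (m := 1) (by norm_num) (j := e) ?_
      rw [h]
      exact hm
  · intro f r t f' r' t' h hr
    by_cases hr' : r' = 1
    · exfalso
      have h1 := face_one_mem' (f := f') (q := (r', t')) hr'
      obtain ⟨J, hI⟩ := CWComplex.cellFrontier_subset_finite_openCell 2 f'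
      have h2 := hI h1
      simp only [mem_iUnion, exists_prop] at h2
      obtain ⟨m, hm, j, -, hx⟩ := h2
      exact face_not_mem (f := f) (q := (r, t)) hr hm (j := j) (by rw [h]; exact hx)
    · have hm := face_mem (f := f) (q := (r, t)) hr
      have hm' := face_mem (f := f') (q := (r', t')) hr'
      rw [← h] at hm'
      have := open_ne hm hm'
      simp only [Sigma.mk.injEq, heq_eq_eq, true_and] at this
      subst this
      have h2 := map_inj f (a := (r : ℝ) • theta t) (b := (r' : ℝ) • theta t')
        (by rw [norm_pol (r, t)]; exact unitInterval.lt_one_iff_ne_one.2 hr)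
        (by rw [norm_pol (r', t')]; exact unitInterval.lt_one_iff_ne_one.2 hr') h
      have h3 : (r : ℝ) = r' := by
        rw [← norm_pol (r, t), ← norm_pol (r', t')]
        exact congrArg _ h2
      have h4 : r = r' := Subtype.ext h3
      subst h4
      refine ⟨rfl, rfl, ?_⟩
      by_cases h0 : r = 0
      · exact Or.inl h0
      · right
        have h5 : (r : ℝ) ≠ 0 := fun h => h0 (Subtype.ext h)
        exact theta_inj (smul_right_injective _ h5 h2)
  · intro f
    obtain ⟨J, hI⟩ := CWComplex.cellFrontier_subset_finite_closedCell 2 f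
    refine ⟨J 1, fun t => ?_⟩
    have h2 := hI (face_one_mem' (f := f) (q := (1, t)) rfl)
    simp only [mem_iUnion, exists_prop] at h2
    obtain ⟨m, hm, j, hj, hx⟩ := h2
    have hm' : m = 0 ∨ m = 1 := by omega
    rcases hm' with rfl | rfl
    · left
      rw [CWComplex.closedCell_zero_eq_singleton] at hx
      exact ⟨j, hx.symm⟩
    · right
      rw [closedCell_one] at hx
      simp only [mem_iUnion, exists_prop]
      exact ⟨j, hj, hx⟩
  · intro x
    have hx : x ∈ ⋃ (n : ℕ) (j : RelCWComplex.cell (univ : Set Z) n), RelCWComplex.openCell n j := by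
      rw [CWComplex.iUnion_openCell_eq_complex]
      exact mem_univ x
    simp only [mem_iUnion] at hx
    obtain ⟨n, j, hx⟩ := hx
    have hn : n = 0 ∨ n = 1 ∨ n = 2 ∨ n > 2 := by omega
    rcases hn with rfl | rfl | rfl | hn
    · exact Or.inl (Or.inl ⟨j, (mem_openCell_zero hx).symm⟩)
    · left
      right
      have := CWComplex.openCell_subset_closedCell 1 j hx
      rw [closedCell_one] at this
      exact mem_iUnion.2 ⟨j, this⟩
    · right
      obtain ⟨z, hz, rfl⟩ := hx
      rw [Metric.mem_ball, dist_zero_right] at hz
      obtain ⟨r, t, hr, h⟩ := exists_polar z hz.le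
      refine ⟨j, r, t, ?_, ?_⟩
      · intro h1
        rw [h1] at hr
        rw [← hr] at hz
        exact lt_irrefl _ hz
      · rw [h]
        rfl
    · exact ((hdim n hn).false j).elim
  · intro A hA h
    refine CWComplex.isClosed_of_disjoint_openCell_or_isClosed_inter_closedCell
      (subset_univ A) fun n hn j => ?_
    have hn : n = 1 ∨ n = 2 ∨ n > 2 := by omega
    rcases hn with rfl | rfl | hn
    · exact Or.inr (closed_edge j (h j))
    · exact Or.inl (disjoint_face hA j)
    · exact ((hdim n hn).false j).elim
  · intro A h h'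
    refine CWComplex.isClosed_of_disjoint_openCell_or_isClosed_inter_closedCell
      (subset_univ A) fun n hn j => ?_
    have hn : n = 1 ∨ n = 2 ∨ n > 2 := by omega
    rcases hn with rfl | rfl | hn
    · exact Or.inr (closed_edge j (h j))
    · exact Or.inr (closed_face j (h' j))
    · exact ((hdim n hn).false j).elim

end Vale.Agent.P246.Dis.H87
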