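import Vale.Agent.P173.Bdl.B1
import Vale.Agent.P246.T.AC

/-! # P246, disproof, block C1: from a two-dimensional CW complex to a presentation

The bridge of P173 (`Vale.Agent.P173.Topo`), for simply connected instead of contractible
covering spaces. -/

open Set Topology unitInterval

namespace Vale.Agent.P246.Dis.H87

open Vale.Agent.P173.Topo

/-- lifting of maps from a simply connected, locally path connected space -/
theorem exists_lift_sc {E Y B : Type} [TopologicalSpace E] [TopologicalSpace Y]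
    [TopologicalSpace B] [SimplyConnectedSpace E] [LocallyPathConnectedSpace E] {q : Y → B}
    (hq : IsCoveringMap q) (g : E → B) (hg : Continuous g) (e₀ : E) (y₀ : Y) (h : q y₀ = g e₀) :
    ∃ g' : E → Y, Continuous g' ∧ (∀ x, q (g' x) = g x) ∧ g' e₀ = y₀ := by
  obtain ⟨a, ⟨ha1, ha2⟩, -⟩ := hq.existsUnique_continuousMap_lifts ⟨g, hg⟩ e₀ y₀ h
  exact ⟨a, a.continuous, fun x => congrFun ha2 x, ha1⟩

variable {Z : Type} [TopologicalSpace Z] (c : Vale.Agent.P173.Topo.Cx Z)
variable {E : Type} [TopologicalSpace E] {p : E → Z} {G : Type} [Group G] [MulAction G E]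

theorem surj [SimplyConnectedSpace E] [LocallyPathConnectedSpace E]
    (hp : IsQuotientCoveringMap p G)
    (L : Lifts c p G) (v₀ : c.V) : Function.Surjective (FreeGroup.lift L.φ) := by
  have := hp.toContinuousConstSMul
  set H : Subgroup G := (FreeGroup.lift L.φ).range with hH
  let _ : TopologicalSpace (G ⧸ H) := ⊥
  have : DiscreteTopology (G ⧸ H) := ⟨rfl⟩
  have : ContinuousConstSMul G (G ⧸ H) := ⟨fun _ => continuous_of_discreteTopology⟩
  have hcov := isQuotientCoveringMap_prod (M := G ⧸ H) hp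
  let mk : E × (G ⧸ H) → Quotient (MulAction.orbitRel G (E × (G ⧸ H))) :=
    Quotient.mk (MulAction.orbitRel G (E × (G ⧸ H)))
  have hmkc : Continuous mk := continuous_quotient_mk'
  have hmk : ∀ (g : G) (x : E) (y : G ⧸ H), mk (g • x, g • y) = mk (x, y) := fun g x y =>
    Quotient.sound ⟨g, rfl⟩
  let b₀ : G ⧸ H := QuotientGroup.mk 1
  have hb₀ : ∀ a : FreeGroup c.Ed, FreeGroup.lift L.φ a • b₀ = b₀ := by
    intro a
    change (QuotientGroup.mk (FreeGroup.lift L.φ a * 1) : G ⧸ H) = QuotientGroup.mk 1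
    rw [mul_one]
    refine (QuotientGroup.eq.2 ?_).symm
    rw [inv_one, one_mul]
    exact ⟨a, rfl⟩
  have hmk' : ∀ (a : FreeGroup c.Ed) (x : E), mk (FreeGroup.lift L.φ a • x, b₀) = mk (x, b₀) := by
    intro a x
    rw [← hmk (FreeGroup.lift L.φ a) x b₀, hb₀]
  -- the section over the 1-skeleton
  have : Nonempty (Quotient (MulAction.orbitRel G (E × (G ⧸ H)))) := ⟨mk (L.vt v₀, b₀)⟩
  obtain ⟨g₁, hg₁, hg₁v, hg₁e⟩ := c.glue1 (fun v => mk (L.vt v, b₀)) (fun e s => mk (L.et e s, b₀))
    (fun e => hmkc.comp ((L.cont e).prodMk continuous_const))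
    (fun e => by simp only [L.zero])
    (fun e => by
      simp only [L.one]
      have := hmk' (FreeGroup.of e) (L.vt (c.tgt e))
      rwa [FreeGroup.lift_apply_of] at this)
  have hg₁q : ∀ q : c.Pos, g₁ q.at = mk (L.at q, b₀) := by
    intro q
    cases q with
    | ver v => exact hg₁v v
    | arc e s => exact hg₁e e s
  choose hw1 ft hft hpft hft0 hftw hpos using fun f => L.exists_face c hp f
  obtain ⟨g, hg, hgg, hgf⟩ := c.glue2 g₁ hg₁ (fun f q => mk (ft f q, b₀))
    (fun f => hmkc.comp ((hft f).prodMk continuous_const))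
    (fun f t t' => by simp only [hft0 f t t']) (fun f r => by simp only [hftw f r])
    (fun f t => by
      obtain ⟨q, a, h1, -, h3⟩ := hpos f t
      rw [← h1, hg₁q]
      simp only [h3]
      exact hmk' a _)
  -- the projection to the base
  have hpq : ∀ y y' : E × (G ⧸ H), mk y = mk y' → p y.1 = p y'.1 := by
    intro y y' h
    obtain ⟨a, ha⟩ := Quotient.exact h
    have : a • y'.1 = y.1 := congrArg Prod.fst ha
    rw [← this, hp.map_smul]
  have hgp : ∀ (x : Z) (y : E × (G ⧸ H)), mk y = g x → p y.1 = x := by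
    intro x y h
    rcases c.cover x with hx | ⟨f, r, t, -, hx⟩
    · obtain ⟨q, rfl⟩ := c.exists_pos hx
      rw [hgg (c.pos_mem q), hg₁q] at h
      rw [hpq _ _ h, L.p_at]
    · rw [← hx, hgf] at h
      rw [hpq _ _ h, ← hx]
      exact hpft f (r, t)
  -- lift to the covering space
  obtain ⟨l, hl, hlg, hl0⟩ := exists_lift_sc hcov.isCoveringMap (fun x => g (p x))
    (hg.comp hp.continuous) (L.vt v₀) (L.vt v₀, b₀) (by
      rw [L.p_vt, hgg (c.vert_mem v₀), hg₁v])
  have hl1 : (fun x => (l x).1) = fun x => x := by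
    refine lift_unique hp.isCoveringMap (continuous_fst.comp hl) continuous_id
      (fun x => hgp _ _ (hlg x)) (L.vt v₀) (by rw [hl0])
  have hl2 : ∀ x, (l x).2 = b₀ := by
    intro x
    have h1 := (isPreconnected_univ (α := E)).constant (continuous_snd.comp hl).continuousOn
      (mem_univ x) (mem_univ (L.vt v₀))
    simp only [Function.comp_apply] at h1
    rw [h1, hl0]
  have hl3 : ∀ x, l x = (x, b₀) := fun x => Prod.ext (congrFun hl1 x) (hl2 x)
  intro a
  have h1 : mk (a • L.vt v₀, b₀) = mk (L.vt v₀, b₀) := by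
    rw [← hl3, ← hl3]
    exact (hlg _).trans ((congrArg g (hp.map_smul a)).trans (hlg _).symm)
  obtain ⟨a', ha'⟩ := Quotient.exact h1
  have h2 : a' • L.vt v₀ = a • L.vt v₀ := congrArg Prod.fst ha'
  have h3 : a' • b₀ = b₀ := congrArg Prod.snd ha'
  have := hp.isCancelSMul
  have h4 : a' = a := IsCancelSMul.right_cancel _ _ _ h2
  rw [h4] at h3
  change (QuotientGroup.mk (a * 1) : G ⧸ H) = QuotientGroup.mk 1 at h3
  have h5 := QuotientGroup.eq.1 h3.symm
  rw [inv_one, one_mul, mul_one] at h5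
  exact h5

theorem ker_le [SimplyConnectedSpace E] [LocallyPathConnectedSpace E]
    (hp : IsQuotientCoveringMap p G)
    (L : Lifts c p G) (v₀ : c.V) (pw : c.V → FreeGroup c.Ed)
    (h1 : ∀ v, c.IsPath v₀ v (pw v)) (h2 : ∀ v, FreeGroup.lift L.φ (pw v) = 1) :
    (FreeGroup.lift L.φ).ker ≤ Subgroup.normalClosure (range c.word ∪ range pw) := by
  set N := Subgroup.normalClosure (range c.word ∪ range pw) with hN
  let θ : FreeGroup c.Ed →* FreeGroup c.Ed ⧸ N := QuotientGroup.mk' N
  have hθN : ∀ x, θ x = 1 ↔ x ∈ N := fun x => QuotientGroup.eq_one_iff x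
  obtain ⟨Φ, hΦ, hΦq⟩ := c.exists_flat θ fun f =>
    (hθN _).2 (Subgroup.subset_normalClosure (Or.inl ⟨f, rfl⟩))
  have hcov := (isQuotientCoveringMap_qmk (FreeGroup c.Ed ⧸ N) PUnit.{1}).isCoveringMap
  have hpc : Continuous p := hp.continuous
  have := hp.toContinuousConstSMul
  obtain ⟨Ψ, hΨ, hΨp, -⟩ := exists_lift_sc hcov (fun x => Φ (p x)) (hΦ.comp hpc)
    (L.vt v₀) (EE.one _, PUnit.unit) (by
      rw [L.p_vt]
      exact (hΦq (.ver v₀)).symm)
  have hs : ∀ (g : G) (v : c.V), ∃ s : FreeGroup c.Ed ⧸ N,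
      Ψ (g • L.vt v) = s • (EE.one _, PUnit.unit) := by
    intro g v
    have := hΨp (g • L.vt v)
    rw [hp.map_smul, L.p_vt] at this
    exact qmk_eq_iff.1 (this.trans (hΦq (.ver v)))
  choose s hs using hs
  have hedge : ∀ (g : G) (e : c.Ed), s (g * L.φ e) (c.tgt e) =
      s g (c.src e) * θ (FreeGroup.of e) := by
    intro g e
    have key : (fun t : I => Ψ (g • L.et e t)) =
        fun t : I => s g (c.src e) • ((EE.pth (θ (FreeGroup.of e)) t, PUnit.unit) :
          EE _ × PUnit.{1}) := by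
      refine lift_unique hcov (hΨ.comp ((continuous_const_smul g).comp (L.cont e)))
        ((continuous_const_smul _).comp ((EE.continuous_pth _).prodMk continuous_const)) ?_ 0 ?_
      · intro t
        rw [hΨp, hp.map_smul, L.p_et]
        have h3 := hΦq (.arc e t)
        refine h3.trans (qmk_eq_iff.2 ⟨(s g (c.src e))⁻¹, ?_⟩)
        rw [inv_smul_smul]
        rfl
      · rw [L.zero, hs, EE.pth_zero]
    have h3 := congrFun key 1
    beta_reduce at h3
    rw [L.one, ← mul_smul, hs, EE.pth_one] at h3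
    have h4 : s (g * L.φ e) (c.tgt e) • EE.one _ =
        (s g (c.src e) * θ (FreeGroup.of e)) • EE.one (FreeGroup c.Ed ⧸ N) := by
      rw [mul_smul]
      exact congrArg Prod.fst h3
    exact EE.smul_right_injective _ h4
  have hpath : ∀ v v' x, c.IsPath v v' x → ∀ g : G,
      s (g * FreeGroup.lift L.φ x) v' = s g v * θ x := by
    intro v v' x hx
    induction hx with
    | nil v => intro g; simp only [map_one, mul_one]
    | cons e v x hx ih =>
      intro g
      rw [map_mul, map_mul, FreeGroup.lift_apply_of, ← mul_assoc, ih, hedge, mul_assoc]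
    | cons' e v x hx ih =>
      intro g
      have h3 := hedge (g * (L.φ e)⁻¹) e
      rw [inv_mul_cancel_right] at h3
      rw [map_mul, map_mul, map_inv, map_inv, FreeGroup.lift_apply_of, ← mul_assoc, ih, h3]
      group
  have hv : ∀ g v, s g v = s g v₀ := by
    intro g v
    have h3 := hpath _ _ _ (h1 v) g
    rwa [h2, mul_one, (hθN _).2 (Subgroup.subset_normalClosure (Or.inr ⟨v, rfl⟩)), mul_one] at h3
  have hall : ∀ x : FreeGroup c.Ed, ∀ g : G, s (g * FreeGroup.lift L.φ x) v₀ = s g v₀ * θ x := by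
    intro x
    induction x using FreeGroup.induction_on with
    | C1 => intro g; simp
    | of e =>
      intro g
      rw [FreeGroup.lift_apply_of, ← hv _ (c.tgt e), hedge, hv]
    | inv_of e ih =>
      intro g
      have h3 := ih (g * (L.φ e)⁻¹)
      rw [FreeGroup.lift_apply_of, inv_mul_cancel_right] at h3
      rw [map_inv, map_inv, FreeGroup.lift_apply_of, h3]
      group
    | mul x y ihx ihy =>
      intro g
      rw [map_mul, map_mul, ← mul_assoc, ihy, ihx, mul_assoc]
  intro x hx
  have h3 := hall x 1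
  rw [(MonoidHom.mem_ker).1 hx, mul_one] at h3
  exact (hθN _).1 (left_eq_mul.1 h3)

theorem exists_lifts' [ConnectedSpace Z] (hp : IsQuotientCoveringMap p G)
    (v₀ : c.V) :
    ∃ (L : Lifts c p G) (pw : c.V → FreeGroup c.Ed), pw v₀ = 1 ∧
      (∀ v, c.IsPath v₀ v (pw v)) ∧ ∀ v, FreeGroup.lift L.φ (pw v) = 1 := by
  classical
  obtain ⟨L⟩ := exists_lifts_zero c hp
  choose pw₀ hpw₀ using c.exists_isPath v₀
  let pw : c.V → FreeGroup c.Ed := fun v => if v = v₀ then 1 else pw₀ v
  have hpw : ∀ v, c.IsPath v₀ v (pw v) := by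
    intro v
    by_cases h : v = v₀
    · subst h
      show c.IsPath v v (if v = v then 1 else _)
      rw [if_pos rfl]
      exact .nil v
    · show c.IsPath v₀ v (if v = v₀ then 1 else _)
      rw [if_neg h]
      exact hpw₀ v
  have h0 : pw v₀ = 1 := if_pos rfl
  refine ⟨L.twist c hp fun v => FreeGroup.lift L.φ (pw v), pw, h0, hpw, fun v => ?_⟩
  rw [L.twist_lift c hp _ (hpw v), h0, map_one, one_mul, mul_inv_cancel]

end Vale.Agent.P246.Dis.H87
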