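import Vale.Agent.P246.Dis.H87.CxC
import Vale.Agent.P246.T.CWB

/-! # P246, disproof, block C1: the presentation of a finite two-dimensional CW complex -/

open Set Topology unitInterval

namespace Vale.Agent.P246.Dis.H87

open Vale.Agent.P173.Topo

/-- A presentation with finitely many generators and relators, indexed by `Fin`. -/
theorem exists_finPresentation {G : Type} [Group G] {X R : Type} [Finite X] [Finite R]
    (φ : X → G) (w : R → FreeGroup X) (surj : Function.Surjective (FreeGroup.lift φ))
    (ker : (FreeGroup.lift φ).ker = Subgroup.normalClosure (range w)) :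
    ∃ P : FinPresentation G, P.gens = Nat.card X ∧ P.rels = Nat.card R := by
  let eX : X ≃ Fin (Nat.card X) := Finite.equivFin X
  let eR : R ≃ Fin (Nat.card R) := Finite.equivFin R
  let f : FreeGroup X ≃* FreeGroup (Fin (Nat.card X)) := FreeGroup.freeGroupCongr eX
  have hf : ∀ y : FreeGroup X, FreeGroup.lift (fun i => φ (eX.symm i)) (f y) =
      FreeGroup.lift φ y := by
    intro y
    have : (FreeGroup.lift (fun i => φ (eX.symm i))).comp f.toMonoidHom = FreeGroup.lift φ := by
      ext x
      simp [f]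
    exact DFunLike.congr_fun this y
  refine ⟨{ gens := Nat.card X, rels := Nat.card R, x := fun i => φ (eX.symm i),
            r := fun j => f (w (eR.symm j)), surj := ?_, ker_eq := ?_ }, rfl, rfl⟩
  · intro g
    obtain ⟨y, hy⟩ := surj g
    exact ⟨f y, (hf y).trans hy⟩
  · have h1 : range (fun j => f (w (eR.symm j))) = f '' range w := by
      ext y
      constructor
      · rintro ⟨j, rfl⟩
        exact ⟨_, ⟨_, rfl⟩, rfl⟩
      · rintro ⟨_, ⟨r, rfl⟩, rfl⟩
        exact ⟨eR r, by simp⟩
    rw [h1]
    have h2 : f '' range w = f.toMonoidHom '' range w := rfl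
    rw [h2, ← Subgroup.map_normalClosure (range w) f.toMonoidHom f.surjective, ← ker]
    ext y
    rw [Subgroup.mem_map]
    constructor
    · intro hy
      refine ⟨f.symm y, ?_, f.apply_symm_apply y⟩
      rw [MonoidHom.mem_ker, ← hf, f.apply_symm_apply]
      exact hy
    · rintro ⟨x, hx, rfl⟩
      rw [MonoidHom.mem_ker] at hx ⊢
      exact (hf x).trans hx

/-- The action of the fundamental group on a simply connected covering space. -/
theorem exists_action' {E Z : Type} [TopologicalSpace E] [TopologicalSpace Z]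
    [SimplyConnectedSpace E] [LocallyPathConnectedSpace E] [PathConnectedSpace Z] {p : E → Z}
    (hp : IsCoveringMap p)
    (z : Z) {Γ : Type} [Group Γ] (e : FundamentalGroup Z z ≃* Γ) :
    ∃ _ : MulAction Γ E, IsQuotientCoveringMap p Γ := by
  let _ := T.AC.deckAction p
  have hq := T.AC.isQuotientCoveringMap_deck hp
  obtain ⟨x, hx⟩ := hq.surjective z
  let φ : Γ ≃* T.Deck p :=
    e.symm.trans ((hq.fundamentalGroupEquiv (x := z) ⟨x, hx⟩).trans
      (MulEquiv.inv' (T.Deck p)).symm)
  let A : MulAction Γ E := MulAction.compHom E φ.toMonoidHom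
  refine ⟨A, ?_⟩
  have hA : ∀ (g : Γ) (y : E), g • y = φ g • y := fun g y => rfl
  rw [isQuotientCoveringMap_iff_isCoveringMap_and] at hq ⊢
  obtain ⟨h1, h2, h3, h4, h5⟩ := hq
  refine ⟨h1, h2, ⟨fun g => ?_⟩, ⟨fun g g' y h => ?_⟩, fun {e₁ e₂} => ?_⟩
  · simp only [hA]
    exact h3.continuous_const_smul (φ g)
  · simp only [hA] at h
    exact φ.injective (h4.right_cancel' _ _ _ h)
  · rw [h5]
    constructor
    · rintro ⟨d, hd⟩
      refine ⟨φ.symm d, ?_⟩
      simp only [hA, MulEquiv.apply_symm_apply]
      exact hd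
    · rintro ⟨g, hg⟩
      exact ⟨φ g, hg⟩

/-- **Block C1.** A connected finite CW complex `Z` of dimension at most two with fundamental
group `G` and a simply connected covering space gives a presentation of `G` with `#E` generators
and `#F + #V - 1` relators. -/
theorem exists_pres_of_cw {Z : Type} [TopologicalSpace Z] [T2Space Z]
    [CWComplex (univ : Set Z)] [CWComplex.Finite (univ : Set Z)]
    (hdim : ∀ n > 2, IsEmpty (RelCWComplex.cell (univ : Set Z) n)) [ConnectedSpace Z]
    {E : Type} [TopologicalSpace E] [SimplyConnectedSpace E] {p : E → Z} (hp : IsCoveringMap p)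
    (z : Z) {G : Type} [Group G] (e : FundamentalGroup Z z ≃* G) :
    ∃ P : FinPresentation G, P.gens = Nat.card (RelCWComplex.cell (univ : Set Z) 1) ∧
      P.rels + 1 = Nat.card (RelCWComplex.cell (univ : Set Z) 2) +
        Nat.card (RelCWComplex.cell (univ : Set Z) 0) := by
  classical
  obtain ⟨-, -, hlpc⟩ := T.CWB.main Z
  have hpc : PathConnectedSpace Z := PathConnectedSpace.of_locallyPathConnectedSpace
  have hlE : LocallyPathConnectedSpace E := T.AC.locallyPathConnectedSpace hp.isLocalHomeomorph
  obtain ⟨c, hV, hEd, hFa⟩ := exists_Cx' hdim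
  obtain ⟨_, hq⟩ := exists_action' hp z e
  have : Nonempty Z := ⟨z⟩
  obtain ⟨v₀⟩ := c.nonempty_V
  obtain ⟨L, pw, h0, h1, h2⟩ := exists_lifts' c hq v₀
  have hfin : ∀ n, Finite (RelCWComplex.cell (univ : Set Z) n) := fun n => RelCWComplex.FiniteType.finite_cell n
  have hfV : Finite c.V := by rw [hV]; exact hfin 0
  have hfE : Finite c.Ed := by rw [hEd]; exact hfin 1
  have hfF : Finite c.Fa := by rw [hFa]; exact hfin 2
  let w : c.Fa ⊕ {v // v ≠ v₀} → FreeGroup c.Ed := Sum.elim c.word fun v => pw v.1
  obtain ⟨P, hP1, hP2⟩ := exists_finPresentation L.φ w (surj c hq L v₀) (by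
    apply le_antisymm
    · refine (ker_le c hq L v₀ pw h1 h2).trans (Subgroup.normalClosure_le_normal ?_)
      rintro _ (⟨f, rfl⟩ | ⟨v, rfl⟩)
      · exact Subgroup.subset_normalClosure ⟨Sum.inl f, rfl⟩
      · by_cases hv : v = v₀
        · rw [hv, h0]; exact one_mem _
        · exact Subgroup.subset_normalClosure ⟨Sum.inr ⟨v, hv⟩, rfl⟩
    · refine Subgroup.normalClosure_le_normal ?_
      rintro _ ⟨r | r, rfl⟩
      · exact (L.exists_face c hq r).1
      · exact h2 r.1)
  refine ⟨P, hP1.trans (by rw [hEd]), ?_⟩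
  rw [hP2, Nat.card_sum, ← hFa, ← hV, add_assoc]
  congr 1
  have : Fintype c.V := Fintype.ofFinite _
  rw [Nat.card_eq_fintype_card, Nat.card_eq_fintype_card, Fintype.card_subtype_compl,
    Fintype.card_subtype_eq]
  have : 0 < Fintype.card c.V := Fintype.card_pos_iff.2 ⟨v₀⟩
  omega

end Vale.Agent.P246.Dis.H87
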